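import Vale.Agent.P050.H546.GSpec

/-!
The mean logarithm of the number of walks with given ends: `GValStmt`.
-/

set_option linter.unusedSectionVars false

namespace Vale.Agent.P050.H869

open Finset Vale.Agent.P050.H148 Vale.Agent.P050.Cart Vale.Agent.P050.M18 Vale.Agent.P050.H546

variable {U : Type} [Fintype U] [DecidableEq U] {Q : U × U → ℝ}

theorem zp_nb_nn (hE : Edge Q) (j : ℕ) (x z : U) : 0 ≤ zp (nb Q) j x z :=
  zp_nonneg (fun a b => hE.nb_nn a b) j x z

theorem EE_nn (hE : Edge Q) (j : ℕ) (x : U × U) : 0 ≤ EE Q j x :=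
  mul_nonneg (hE.mm_nn _) (zp_nb_nn hE j _ _)

/-- the law of the second end -/
theorem EE_snd (hE : Edge Q) (j : ℕ) (z : U) : ∑ x, EE Q j (x, z) = mm Q z := by
  induction j generalizing z with
  | zero =>
    rw [Finset.sum_eq_single z]
    · simp [EE, zp]
    · intro x _ hx
      simp [EE, zp, hx]
    · intro h
      exact absurd (mem_univ _) h
  | succ j ih =>
    have h1 : ∀ x, EE Q (j + 1) (x, z) = ∑ y, EE Q j (x, y) * nb Q y z := by
      intro x
      show mm Q x * ∑ y, zp (nb Q) j x y * nb Q y z = ∑ y, mm Q x * zp (nb Q) j x y * nb Q y z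
      rw [Finset.mul_sum]
      exact Finset.sum_congr rfl fun y _ => by ring
    simp_rw [h1]
    rw [Finset.sum_comm]
    simp_rw [← Finset.sum_mul, ih, hE.mm_mul_nb]
    unfold mm
    exact Finset.sum_congr rfl fun y _ => hE.sym _ _

theorem mar_EE_snd (hE : Edge Q) (j : ℕ) : mar (EE Q j) (fun x => x.2) = mm Q := by
  funext z
  rw [mar_prod_snd]
  exact EE_snd hE j z

theorem EE_tot (hE : Edge Q) (j : ℕ) : ∑ x, EE Q j x = 1 := by
  rw [← mar_total (EE Q j) (fun x => x.2), mar_EE_snd hE j]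
  have h1 : ∑ x, mm Q x = ∑ e, Q e := by
    rw [Fintype.sum_prod_type]
    rfl
  rw [h1, hE.tot]

theorem EE_ne (hE : Edge Q) (j : ℕ) {x : U × U} (hx : EE Q j x ≠ 0) : mm Q x.2 ≠ 0 := by
  rw [← mar_EE_snd hE j]
  exact mar_ne_zero (EE_nn hE j) (fun x => x.2) hx

/-- one more neighbour -/
noncomputable def PJ (Q : U × U → ℝ) (j : ℕ) : (U × U) × U → ℝ :=
  att (EE Q j) (fun x => x.2) (nb Q)

theorem PJ_one (hE : Edge Q) (j : ℕ) (x : U × U) (hx : EE Q j x ≠ 0) : ∑ z, nb Q x.2 z = 1 :=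
  hE.nb_one (EE_ne hE j hx)

theorem PJ_law (j : ℕ) (x : U × U) :
    mar (PJ Q j) (fun ω => (ω.1.1, ω.2)) x = EE Q (j + 1) x := by
  obtain ⟨a, z⟩ := x
  have h1 := att_mar2 (EE Q j) (fun x => x.2) (nb Q) (fun x => x.1) a z
  unfold PJ
  rw [h1]
  have h2 : ∀ d, mar (EE Q j) (fun ω => (ω.1, ω.2)) (a, d) = EE Q j (a, d) := fun d =>
    mar_id (EE Q j) (a, d)
  simp_rw [h2]
  show ∑ y, mm Q a * zp (nb Q) j a y * nb Q y z = mm Q a * ∑ y, zp (nb Q) j a y * nb Q y z
  rw [Finset.mul_sum]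
  exact Finset.sum_congr rfl fun y _ => by ring

/-- the conditional entropy of a step -/
theorem PJ_ent (hE : Edge Q) (j : ℕ) :
    ent (PJ Q j) (fun ω => (ω.1.1, ω.1.2, ω.2)) - ent (PJ Q j) (fun ω => (ω.1.1, ω.1.2)) =
      hQ Q - aQ Q := by
  have h1 := ent_att (P := EE Q j) (f := fun x => x.2) (K := nb Q) (EE_nn hE j) hE.nb_nn
    (PJ_one hE j) (fun x => x) (fun x => x.2) (fun _ => rfl)
  have h2 : ent (PJ Q j) (fun ω => (ω.1.1, ω.1.2)) = ent (EE Q j) (fun x => x) :=
    ent_att_fst (PJ_one hE j) (fun x => x)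
  have h3 : ent (EE Q j) (fun x => x.2) = aQ Q := by
    unfold aQ ent
    rw [mar_EE_snd hE j]
    simp_rw [mar_id]
  have h4 : ent (PJ Q j) (fun ω => (ω.1.2, ω.2)) = hQ Q := by
    unfold hQ
    refine ent_law fun a => ?_
    obtain ⟨y, z⟩ := a
    have h5 := mar_att (P := EE Q j) (f := fun x => x.2) (K := nb Q) (fun x => x.2) (fun y => y)
      (fun _ => rfl) y z
    unfold PJ
    rw [h5, mar_EE_snd hE j, hE.mm_mul_nb]
    exact (mar_id Q (y, z)).symm
  have h5 : ent (PJ Q j) (fun ω => (ω.1.1, ω.1.2, ω.2)) = ent (PJ Q j) (fun ω => (ω.1, ω.2)) :=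
    ent_same _ fun x y => by
      simp only [Prod.ext_iff, and_assoc]
  have h6 : ent (PJ Q j) (fun ω => (ω.1, ω.2)) + ent (EE Q j) (fun x => x.2) =
      ent (EE Q j) (fun x => x) + ent (PJ Q j) (fun ω => (ω.1.2, ω.2)) := h1
  rw [h5, h2]
  linarith

theorem val_EE (A : U → U → ℝ) (j : ℕ) : val A j (EE Q j) (fun x => x.1) (fun x => x.2) =
    hh Q j + ∑ x, EE Q j x * Real.log (zp A j x.1 x.2) := rfl

/-- [GV] -/
theorem gval : GValStmt := by
  intro U _ _ A Q hE hA hQA j
  induction j with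
  | zero =>
    have hz : ∀ x, EE Q 0 x ≠ 0 → zp A 0 x.1 x.2 = 1 := by
      intro x hx
      have h1 := right_ne_zero_of_mul hx
      simp only [zp] at h1 ⊢
      by_contra hne
      exact h1 (if_neg fun h => hne (if_pos h))
    refine ⟨fun x hx => by rw [hz x hx]; exact one_ne_zero, ?_⟩
    have h2 : ∑ x, EE Q 0 x * Real.log (zp A 0 x.1 x.2) = 0 := by
      refine Finset.sum_eq_zero fun x _ => ?_
      by_cases h0 : EE Q 0 x = 0
      · rw [h0, zero_mul]
      · rw [hz x h0, Real.log_one, mul_zero]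
    have h3 : hh Q 0 = aQ Q := by
      have h4 : ent (mm Q) (fun x => (x, x)) = ent (mm Q) (fun x => x) :=
        ent_same _ fun x y => by simp
      unfold hh aQ
      rw [← h4]
      refine ent_law fun a => ?_
      rw [mar_id]
      obtain ⟨x, z⟩ := a
      unfold mar
      by_cases hxz : x = z
      · subst hxz
        rw [Finset.sum_eq_single x]
        · simp [EE, zp]
        · intro y _ hy
          simp [hy]
        · intro h
          exact absurd (mem_univ _) h
      · have h5 : EE Q 0 (x, z) = 0 := by simp [EE, zp, hxz]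
        rw [h5]
        symm
        refine Finset.sum_eq_zero fun y _ => ?_
        rw [if_neg]
        intro h6
        simp only [Prod.mk.injEq] at h6
        exact hxz (h6.1.symm.trans h6.2)
    rw [h2, h3]
    simp
  | succ j ih =>
    obtain ⟨ih1, ih2⟩ := ih
    have hP : ∀ ω, 0 ≤ PJ Q j ω := att_nonneg (EE_nn hE j) hE.nb_nn
    have hP1 : ∑ ω, PJ Q j ω = 1 := att_total (EE_tot hE j) (PJ_one hE j)
    have hs : ∀ ω, PJ Q j ω ≠ 0 → A ω.1.2 ω.2 = 1 := by
      intro ω h0
      have h1 : nb Q ω.1.2 ω.2 ≠ 0 := right_ne_zero_of_mul h0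
      exact hQA _ _ (div_ne_zero_iff.1 h1).1
    have hz : ∀ ω, PJ Q j ω ≠ 0 → zp A j ω.1.1 ω.1.2 ≠ 0 := fun ω h0 =>
      ih1 ω.1 (left_ne_zero_of_mul h0)
    have key := val_step hA hP hP1 j (fun ω => ω.1.1) (fun ω => ω.1.2) (fun ω => ω.2) hs hz
    have e1 : val A j (PJ Q j) (fun ω => ω.1.1) (fun ω => ω.1.2) =
        val A j (EE Q j) (fun x => x.1) (fun x => x.2) := val_law fun a => by
      have := mar_att_fst (P := EE Q j) (f := fun x => x.2) (K := nb Q) (PJ_one hE j)
        (fun x => (x.1, x.2))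
      exact congrFun this a
    have e2 : val A (j + 1) (PJ Q j) (fun ω => ω.1.1) (fun ω => ω.2) =
        val A (j + 1) (EE Q (j + 1)) (fun x => x.1) (fun x => x.2) := val_law fun a => by
      rw [PJ_law]
      exact (mar_id (EE Q (j + 1)) a).symm
    refine ⟨?_, ?_⟩
    · intro x hx
      rw [← PJ_law] at hx
      classical
      unfold mar at hx
      obtain ⟨ω, -, hω⟩ := Finset.exists_ne_zero_of_sum_ne_zero hx
      have h3 : (ω.1.1, ω.2) = x := by
        by_contra hne
        exact hω (if_neg hne)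
      rw [if_pos h3] at hω
      have h4 := key.1 ω hω
      rw [← h3]
      exact h4
    · have h5 := key.2
      rw [e1, e2, PJ_ent hE j, val_EE, val_EE] at h5
      push_cast
      linarith

end Vale.Agent.P050.H869
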